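import Mathlib

open Finset

namespace Vale.Agent.P058

/-- Finite hypergraph Ramsey theorem for finite sets of natural numbers. -/
theorem finite_hyper_ramsey {κ : Type} [Finite κ] [Nonempty κ] : ∀ k m : ℕ, ∃ N : ℕ,
    ∀ S : Finset ℕ, N ≤ S.card → ∀ C : Finset ℕ → κ,
      ∃ H ⊆ S, H.card = m ∧ ∃ c : κ, ∀ A ⊆ H, A.card = k → C A = c := by
  classical
  intro k
  induction k with
  | zero =>
    intro m
    refine ⟨m, fun S hS C => ?_⟩
    obtain ⟨H, hHS, hH⟩ := Finset.exists_subset_card_eq hS
    refine ⟨H, hHS, hH, C ∅, fun A _ hA => ?_⟩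
    rw [Finset.card_eq_zero.1 hA]
  | succ k ih =>
    have key : ∀ t : ℕ, ∃ N : ℕ, ∀ S : Finset ℕ, N ≤ S.card → ∀ C : Finset ℕ → κ,
        ∃ T ⊆ S, T.card = t ∧ ∃ f : ℕ → κ, ∀ A ⊆ T, A.card = k + 1 →
          ∀ a ∈ A, (∀ b ∈ A, a ≤ b) → C A = f a := by
      intro t
      induction t with
      | zero =>
        refine ⟨0, fun S _ C => ⟨∅, Finset.empty_subset _, rfl, fun _ => C ∅, ?_⟩⟩
        intro A hA hk
        rw [Finset.subset_empty.1 hA] at hk
        simp at hk
      | succ t iht =>
        obtain ⟨Nt, hNt⟩ := iht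
        obtain ⟨N, hN⟩ := ih Nt
        refine ⟨N + 1, fun S hS C => ?_⟩
        have hne : S.Nonempty := Finset.card_pos.1 (by omega)
        set a := S.min' hne with ha
        have haS : a ∈ S := S.min'_mem hne
        have hcard : N ≤ (S.erase a).card := by
          rw [Finset.card_erase_of_mem haS]
          omega
        obtain ⟨H, hH, hHc, c, hc⟩ := hN (S.erase a) hcard (fun A => C (insert a A))
        obtain ⟨T, hT, hTc, f, hf⟩ := hNt H (le_of_eq hHc.symm) C
        have hgt : ∀ x ∈ T, a < x := by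
          intro x hx
          have hx' := hH (hT hx)
          rw [Finset.mem_erase] at hx'
          exact lt_of_le_of_ne (S.min'_le x hx'.2) (Ne.symm hx'.1)
        have haT : a ∉ T := fun h => lt_irrefl a (hgt a h)
        refine ⟨insert a T, ?_, ?_, Function.update f a c, ?_⟩
        · rw [Finset.insert_subset_iff]
          exact ⟨haS, fun x hx => Finset.mem_of_mem_erase (hH (hT hx))⟩
        · rw [Finset.card_insert_of_notMem haT, hTc]
        · intro A hA hk b hb hmin
          by_cases haA : a ∈ A
          · have hab : b = a := by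
              rcases Finset.mem_insert.1 (hA hb) with h | h
              · exact h
              · exact absurd (hmin a haA) (not_le.2 (hgt b h))
            subst hab
            rw [Function.update_self]
            have hsub : A.erase a ⊆ H := by
              intro x hx
              rw [Finset.mem_erase] at hx
              exact hT ((Finset.mem_insert.1 (hA hx.2)).resolve_left hx.1)
            have := hc (A.erase a) hsub (by rw [Finset.card_erase_of_mem haA]; omega)
            simpa [Finset.insert_erase haA] using this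
          · have hsub : A ⊆ T := fun x hx =>
              (Finset.mem_insert.1 (hA hx)).resolve_left (fun h => haA (h ▸ hx))
            have hba : b ≠ a := fun h => haA (h ▸ hb)
            rw [Function.update_of_ne hba]
            exact hf A hsub hk b hb hmin
    intro m
    let _ : Fintype κ := Fintype.ofFinite κ
    obtain ⟨N, hN⟩ := key (Fintype.card κ * m)
    refine ⟨N, fun S hS C => ?_⟩
    obtain ⟨T, hTS, hTc, f, hf⟩ := hN S hS C
    obtain ⟨c, -, hc⟩ := Finset.exists_le_card_fiber_of_mul_le_card_of_maps_to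
      (s := T) (t := (Finset.univ : Finset κ)) (f := f) (n := m)
      (fun _ _ => Finset.mem_univ _) Finset.univ_nonempty
      (by rw [hTc, Finset.card_univ])
    obtain ⟨H, hH, hHc⟩ := Finset.exists_subset_card_eq hc
    refine ⟨H, fun x hx => hTS (Finset.mem_filter.1 (hH hx)).1, hHc, c, fun A hA hk => ?_⟩
    have hne : A.Nonempty := Finset.card_pos.1 (by omega)
    have h1 := hf A (fun x hx => (Finset.mem_filter.1 (hH (hA hx))).1) hk (A.min' hne)
      (A.min'_mem hne) (fun b hb => A.min'_le b hb)
    rw [h1]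
    exact (Finset.mem_filter.1 (hH (hA (A.min'_mem hne)))).2

/-- A bounded form of van der Waerden's theorem, from the Hales-Jewett theorem. -/
theorem vdw_bounded (κ : Type) [Finite κ] (k : ℕ) : ∃ L : ℕ, ∀ v : ℕ → κ, ∃ d δ : ℕ,
    0 < d ∧ d ≤ L ∧ δ + k * d ≤ k * L ∧ ∃ c : κ, ∀ j ≤ k, v (δ + j * d) = c := by
  classical
  obtain ⟨ι, inst, hι⟩ := Combinatorics.Line.exists_mono_in_high_dimension (Fin (k + 1)) κ
  refine ⟨Fintype.card ι, fun v => ?_⟩
  obtain ⟨l, c, hl⟩ := hι (fun w => v (∑ i, (w i : ℕ)))
  set s : Finset ι := Finset.univ.filter (fun i => l.idxFun i = none) with hs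
  set δ : ℕ := ∑ i ∈ sᶜ, ((l.idxFun i).getD 0 : Fin (k + 1)).val with hδ
  have hval : ∀ x : Fin (k + 1), ∑ i, ((l x i : Fin (k + 1)) : ℕ) = δ + x.val * s.card := by
    intro x
    rw [← Finset.sum_add_sum_compl s]
    have h1 : ∑ i ∈ s, ((l x i : Fin (k + 1)) : ℕ) = x.val * s.card := by
      rw [Finset.sum_congr rfl (g := fun _ => x.val), Finset.sum_const, smul_eq_mul, mul_comm]
      intro i hi
      rw [hs, Finset.mem_filter] at hi
      rw [l.apply_none _ _ hi.2]
    have h2 : ∑ i ∈ sᶜ, ((l x i : Fin (k + 1)) : ℕ) = δ := by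
      refine Finset.sum_congr rfl fun i hi => ?_
      rw [hs, Finset.mem_compl, Finset.mem_filter] at hi
      obtain ⟨y, hy⟩ := Option.ne_none_iff_exists'.1 (fun h => hi ⟨Finset.mem_univ _, h⟩)
      rw [l.apply_some hy, hy]
      rfl
    rw [h1, h2, add_comm]
  refine ⟨s.card, δ, ?_, Finset.card_le_univ _, ?_, c, fun j hj => ?_⟩
  · refine Finset.card_pos.2 ⟨l.proper.choose, ?_⟩
    rw [hs, Finset.mem_filter]
    exact ⟨Finset.mem_univ _, l.proper.choose_spec⟩
  · have hb : δ ≤ sᶜ.card * k := by
      calc δ ≤ ∑ _i ∈ sᶜ, k := Finset.sum_le_sum fun i _ => Nat.le_of_lt_succ (Fin.isLt _)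
        _ = sᶜ.card * k := by rw [Finset.sum_const, smul_eq_mul]
    have := Finset.card_add_card_compl s
    nlinarith
  · have := hl ⟨j, by omega⟩
    simp only [hval] at this
    exact this

end Vale.Agent.P058
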