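import Mathlib

namespace Vale.Agent.P058

/-- Euclidean space of dimension `d`. -/
abbrev Euc (d : ℕ) : Type := EuclideanSpace ℝ (Fin d)

/-- A finite nonempty point set is Ramsey: for every number `r ≥ 2` of colours some dimension
`D ≥ 1` is such that every colouring of `ℝ^D` is constant on a congruent copy of the set. -/
def IsRamsey {n : ℕ} (A : Finset (Euc n)) : Prop :=
  A.Nonempty ∧ ∀ r : ℕ, 2 ≤ r → ∃ D : ℕ, 1 ≤ D ∧ ∀ c : Euc D → Fin r,
    ∃ f : A → Euc D, (∀ x y : A, dist (f x) (f y) = dist (x : Euc n) y) ∧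
      ∀ x y : A, c (f x) = c (f y)

/-- The isometries of the ambient space mapping the set onto itself act transitively on it. -/
def IsTransitiveSet {n : ℕ} (X : Finset (Euc n)) : Prop :=
  ∀ x ∈ X, ∀ y ∈ X, ∃ φ : Euc n ≃ᵢ Euc n, φ '' (X : Set (Euc n)) = (X : Set (Euc n)) ∧ φ x = y

/-- The permutations in `G` preserve distances and act transitively. -/
def IsTransitiveIsometryGroup {n : ℕ} (X : Finset (Euc n)) (G : Subgroup (Equiv.Perm X)) : Prop :=
  (∀ g ∈ G, ∀ x y : X, dist ((g x : X) : Euc n) (g y : X) = dist (x : Euc n) y) ∧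
    ∀ x y : X, ∃ g ∈ G, g x = y

/-- A member of `G` mapping some point of `W` into `W` maps all of `W` into `W`. -/
def IsBlockFor {n : ℕ} (X : Finset (Euc n)) (G : Subgroup (Equiv.Perm X)) (W : Finset X) : Prop :=
  ∀ g ∈ G, ∀ x ∈ W, g x ∈ W → ∀ y ∈ W, g y ∈ W

/-- The map `f` is constant in colour on the part `S`. -/
def IsMonoOn {n D r : ℕ} {X : Finset (Euc n)} (c : Euc D → Fin r) (f : X → Euc D)
    (S : Finset X) : Prop :=
  ∀ x ∈ S, ∀ y ∈ S, c (f x) = c (f y)

/-- The map `f` is a congruent copy of `X`. -/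
def IsCopy {n D : ℕ} (X : Finset (Euc n)) (f : X → Euc D) : Prop :=
  ∀ x y : X, dist (f x) (f y) = dist (x : Euc n) y

/-- Every finite colouring of a suitable space has a congruent copy of `X` with `Y`, `Z`, `W`
separately monochromatic. -/
def HasPartwiseCopies {n : ℕ} (X : Finset (Euc n)) (Y Z W : Finset X) : Prop :=
  ∀ r : ℕ, 2 ≤ r → ∃ D : ℕ, ∀ c : Euc D → Fin r, ∃ f : X → Euc D,
    IsCopy X f ∧ IsMonoOn c f Y ∧ IsMonoOn c f Z ∧ IsMonoOn c f W

end Vale.Agent.P058
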