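import Mathlib

open Finset

namespace Vale.Agent.P058

theorem prodFin_lt_iff {m n : ℕ} (a b : Fin m × Fin n) :
    finProdFinEquiv a < finProdFinEquiv b ↔ a.1 < b.1 ∨ (a.1 = b.1 ∧ a.2 < b.2) := by
  rw [Fin.lt_def, finProdFinEquiv_apply_val, finProdFinEquiv_apply_val]
  have ha := a.2.isLt
  have hb := b.2.isLt
  rcases lt_trichotomy (a.1 : ℕ) (b.1 : ℕ) with h | h | h
  · have : n * ((a.1 : ℕ) + 1) ≤ n * (b.1 : ℕ) := Nat.mul_le_mul_left n h
    rw [Nat.mul_add] at this
    exact iff_of_true (by omega) (Or.inl (Fin.lt_def.2 h))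
  · rw [h]
    have he : a.1 = b.1 := Fin.ext h
    simp [he]
  · have : n * ((b.1 : ℕ) + 1) ≤ n * (a.1 : ℕ) := Nat.mul_le_mul_left n h
    rw [Nat.mul_add] at this
    refine iff_of_false (by omega) ?_
    rintro (h' | ⟨h', -⟩)
    · exact absurd (Fin.lt_def.1 h') (by omega)
    · rw [h'] at h; omega

/-- Counting weighted predecessors in the lexicographic order of a triple product. -/
theorem lex_count {R q t : ℕ} (w : Fin q → Fin t → ℕ) (z : ℕ)
    (ord : Fin R × Fin q × Fin t → ℕ)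
    (hord : ∀ a b, ord a < ord b ↔
      a.1 < b.1 ∨ (a.1 = b.1 ∧ (a.2.1 < b.2.1 ∨ (a.2.1 = b.2.1 ∧ a.2.2 < b.2.2))))
    (e : Fin R × Fin q × Fin t) (hz : ∀ v, w e.2.1 v = z) :
    ∑ a, (if ord a < ord e then w a.2.1 a.2.2 else 0) =
      (e.1 : ℕ) * (∑ j, ∑ v, w j v) + (∑ j ∈ Finset.Iio e.2.1, ∑ v, w j v) + (e.2.2 : ℕ) * z := by
  classical
  obtain ⟨l, j, v⟩ := e
  simp only at hz
  simp only [hord, Fintype.sum_prod_type]
  have hl : ∀ l' : Fin R, (∑ j', ∑ v', if l' < l ∨ (l' = l ∧ (j' < j ∨ (j' = j ∧ v' < v)))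
      then w j' v' else 0) = (if l' < l then ∑ j', ∑ v', w j' v' else 0) +
        (if l' = l then (∑ j', ∑ v', if (j' < j ∨ (j' = j ∧ v' < v)) then w j' v' else 0) else 0) := by
    intro l'
    rcases lt_trichotomy l' l with h | h | h
    · simp [h, h.ne]
    · subst h; simp
    · simp [not_lt.2 h.le, h.ne']
  rw [Finset.sum_congr rfl fun l' _ => hl l', Finset.sum_add_distrib,
    Finset.sum_ite_eq' Finset.univ l, if_pos (Finset.mem_univ _), ← Finset.sum_filter,
    Finset.sum_const, smul_eq_mul]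
  have hcl : ({l' | l' < l} : Finset (Fin R)).card = (l : ℕ) := by
    rw [Finset.filter_gt_eq_Iio, Fin.card_Iio]
  rw [hcl, add_assoc]
  congr 1
  have hj : ∀ j' : Fin q, (∑ v', if (j' < j ∨ (j' = j ∧ v' < v)) then w j' v' else 0) =
      (if j' < j then ∑ v', w j' v' else 0) +
        (if j' = j then (∑ v', if v' < v then w j' v' else 0) else 0) := by
    intro j'
    rcases lt_trichotomy j' j with h | h | h
    · simp [h, h.ne]
    · subst h; simp
    · simp [not_lt.2 h.le, h.ne']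
  rw [Finset.sum_congr rfl fun j' _ => hj j', Finset.sum_add_distrib,
    Finset.sum_ite_eq' Finset.univ j, if_pos (Finset.mem_univ _), ← Finset.sum_filter,
    Finset.filter_gt_eq_Iio, ← Finset.sum_filter, Finset.filter_gt_eq_Iio]
  simp [hz, Fin.card_Iio]

/-- The number of members of a set of natural numbers below a given one. -/
def rankIn (A : Finset ℕ) (a : ℕ) : ℕ := (A.filter (· < a)).card

theorem rankIn_inj {A : Finset ℕ} {a b : ℕ} (ha : a ∈ A) (hb : b ∈ A)
    (h : rankIn A a = rankIn A b) : a = b := by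
  by_contra hne
  rcases Nat.lt_or_gt_of_ne hne with hlt | hlt
  · have : rankIn A a < rankIn A b := by
      refine Finset.card_lt_card (Finset.ssubset_iff_of_subset ?_ |>.2 ⟨a, ?_, ?_⟩)
      · intro x hx; simp only [Finset.mem_filter] at hx ⊢; exact ⟨hx.1, hx.2.trans hlt⟩
      · simp [ha, hlt]
      · simp
    omega
  · have : rankIn A b < rankIn A a := by
      refine Finset.card_lt_card (Finset.ssubset_iff_of_subset ?_ |>.2 ⟨b, ?_, ?_⟩)
      · intro x hx; simp only [Finset.mem_filter] at hx ⊢; exact ⟨hx.1, hx.2.trans hlt⟩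
      · simp [hb, hlt]
      · simp
    omega

theorem rankIn_lt {A : Finset ℕ} {a : ℕ} (ha : a ∈ A) : rankIn A a < A.card := by
  refine Finset.card_lt_card (Finset.ssubset_iff_of_subset (Finset.filter_subset _ _) |>.2 ⟨a, ha, ?_⟩)
  simp

end Vale.Agent.P058
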