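import Vale.Agent.P058.Comb
import Vale.Agent.P058.Order

open Finset

namespace Vale.Agent.P058

variable {X : Type}

/-- The state shown by point `x` in a level. -/
def levelState {q h : ℕ} (p : X → Fin q → Fin h → Fin 3) (x : X) :
    (Fin q × Fin h) ⊕ Bool → Fin 3 :=
  Sum.elim (fun b => p x b.1 b.2) (fun b => if b then 1 else 0)

theorem layout {q h k3 : ℕ} (hq : 0 < q) (hh : 0 < h) (p : X → Fin q → Fin h → Fin 3)
    (B : X → Option (Fin q)) (hB : ∀ x j i, p x j i = 2 ↔ B x = some j) (b0 : Bool)
    (hb : ∀ x, (B x).isSome = b0)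
    (hk3 : ∀ x, ∑ j, ∑ i, (if p x j i = 1 then 1 else 0) = k3)
    (κ : Type) [Finite κ] [Nonempty κ] :
    ∃ P M : ℕ, 0 < P ∧ ∀ g : (Fin M → Fin 3) → κ, ∃ lev : Fin M → (Fin q × Fin h) ⊕ Bool,
      ((Finset.univ : Finset (Fin M)).filter fun l => (lev l).isLeft).card = P ∧
      ∃ c : κ, ∀ x, g (fun l => levelState p x (lev l)) = c := by
  classical
  let h' : ℕ := if b0 then h else 0
  obtain ⟨L, hL⟩ := vdw_bounded κ k3
  let s : ℕ := Nat.factorial L
  let P : ℕ := s * (q * h)
  let Γ : ℕ := k3 * L
  let Ω : ℕ := Γ + s * (2 * h + k3) + 1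
  obtain ⟨N2, hN2⟩ := finite_hyper_ramsey (κ := Fin (Γ + 1) → κ) (s * h') P
  let Bg : ℕ := Ω * (N2 + 1) + Γ
  let K : ℕ := s * (h' + k3) + Bg
  obtain ⟨M, hM⟩ := finite_hyper_ramsey (κ := ↥((Finset.range K).powerset) → κ) K (P + Bg)
  refine ⟨P, M, Nat.mul_pos (Nat.factorial_pos L) (Nat.mul_pos hq hh), fun g => ?_⟩
  let G : Finset ℕ → (↥((Finset.range K).powerset) → κ) := fun A T =>
    g (fun l => if (l : ℕ) ∈ A then (if rankIn A l ∈ (T : Finset ℕ) then 2 else 1) else 0)
  obtain ⟨H1, hH1, hH1c, ψ, hψ⟩ := hM (Finset.range M) (le_of_eq (Finset.card_range M).symm) G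
  let ψ' : Finset ℕ → κ := fun T =>
    if hT : T ∈ (Finset.range K).powerset then ψ ⟨T, hT⟩ else Classical.arbitrary κ
  obtain ⟨H2, hH2, hH2c, v, hv⟩ := hN2 (Finset.Icc 1 N2) (by simp)
    (fun T δ => ψ' (T.image fun x => Ω * x + (δ : ℕ)))
  obtain ⟨d, δ, hd, hdL, hδ, c, hc⟩ := hL (fun m => v ⟨min m Γ, by omega⟩)
  let R : ℕ := s / d
  have hRd : R * d = s := Nat.div_mul_cancel (Nat.dvd_factorial hd hdL)
  have hP : R * (q * (d * h)) = P := by
    show _ = s * (q * h)
    rw [← hRd]; ring
  let φ : Fin R × Fin q × Fin (d * h) ≃ Fin P :=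
    ((Equiv.prodCongr (Equiv.refl _) finProdFinEquiv).trans finProdFinEquiv).trans (finCongr hP)
  let blk : Fin R × Fin q × Fin (d * h) → Fin q × Fin h := fun e =>
    (e.2.1, (finProdFinEquiv.symm e.2.2).2)
  have hord : ∀ a b, (φ a : ℕ) < (φ b : ℕ) ↔
      a.1 < b.1 ∨ (a.1 = b.1 ∧ (a.2.1 < b.2.1 ∨ (a.2.1 = b.2.1 ∧ a.2.2 < b.2.2))) := by
    intro a b
    have h0 : ((φ a : ℕ) < (φ b : ℕ)) ↔
        finProdFinEquiv (a.1, finProdFinEquiv a.2) < finProdFinEquiv (b.1, finProdFinEquiv b.2) := by
      rfl
    rw [h0, prodFin_lt_iff, prodFin_lt_iff]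
  let η : Fin P ↪o ℕ := H2.orderEmbOfFin hH2c
  have hη1 : ∀ i, 1 ≤ η i ∧ η i ≤ N2 := fun i =>
    Finset.mem_Icc.1 (hH2 (H2.orderEmbOfFin_mem hH2c i))
  let off : Fin P → ℕ := fun i =>
    ((φ.symm i).1 : ℕ) * (d * (h' + k3)) + ((φ.symm i).2.2 : ℕ)
  have hsd : d ≤ s := (hdL.trans (Nat.self_le_factorial L))
  have hoff : ∀ i, off i < Ω := by
    intro i
    have h1 : ((φ.symm i).1 : ℕ) * (d * (h' + k3)) ≤ s * (h + k3) := by
      calc ((φ.symm i).1 : ℕ) * (d * (h' + k3)) ≤ R * (d * (h + k3)) := by
            refine Nat.mul_le_mul ((φ.symm i).1.isLt.le) (Nat.mul_le_mul_left d ?_)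
            simp only [h']; split <;> omega
        _ = s * (h + k3) := by rw [← Nat.mul_assoc, hRd]
    have h2 : ((φ.symm i).2.2 : ℕ) < s * h :=
      lt_of_lt_of_le (φ.symm i).2.2.isLt (Nat.mul_le_mul_right h hsd)
    have h3 : s * (2 * h + k3) = s * (h + k3) + s * h := by ring
    simp only [off, Ω]
    omega
  let bg : Fin P → ℕ := fun i => Ω * η i + δ - off i
  have hbg_le : ∀ i, bg i ≤ Bg := by
    intro i
    have : Ω * η i ≤ Ω * (N2 + 1) := Nat.mul_le_mul_left Ω (by have := hη1 i; omega)
    have hδΓ : δ ≤ Γ := le_trans (Nat.le_add_right _ _) hδ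
    simp only [bg, Bg]
    omega
  have hoffle : ∀ i, off i ≤ Ω * η i := fun i =>
    le_trans (hoff i).le (Nat.le_mul_of_pos_right _ (hη1 i).1)
  have hbg_eq : ∀ i, bg i + off i = Ω * η i + δ := by
    intro i; have := hoffle i; simp only [bg]; omega
  have hbg_mono : ∀ i j, i < j → bg i ≤ bg j := by
    intro i j hij
    have h1 : η i + 1 ≤ η j := η.strictMono hij
    have h2 : Ω * (η i + 1) ≤ Ω * η j := Nat.mul_le_mul_left Ω h1
    rw [Nat.mul_add] at h2
    have := hbg_eq i
    have := hbg_eq j
    have := hoff j
    omega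
  let pos : Fin P → Fin (P + Bg) := fun i => ⟨i + bg i, by have := hbg_le i; omega⟩
  have hpos_mono : StrictMono pos := by
    intro i j hij
    have := hbg_mono i j hij
    have := Fin.lt_def.1 hij
    rw [Fin.lt_def]
    simp only [pos]
    omega
  let ε : Fin (P + Bg) ↪o ℕ := H1.orderEmbOfFin hH1c
  have hεM : ∀ a, ε a < M := fun a => Finset.mem_range.1 (hH1 (H1.orderEmbOfFin_mem hH1c a))
  let lev : Fin M → (Fin q × Fin h) ⊕ Bool := fun l =>
    if hl : ∃ i, ε (pos i) = (l : ℕ) then Sum.inl (blk (φ.symm hl.choose))
    else if (l : ℕ) ∈ H1 then Sum.inr true else Sum.inr false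
  have hinj : ∀ i j, ε (pos i) = ε (pos j) → i = j :=
    fun i j hij => hpos_mono.injective (ε.injective hij)
  have hlev_pos : ∀ i (l : Fin M), ε (pos i) = (l : ℕ) → lev l = Sum.inl (blk (φ.symm i)) := by
    intro i l hl
    have hex : ∃ i, ε (pos i) = (l : ℕ) := ⟨i, hl⟩
    have : hex.choose = i := hinj _ _ (hex.choose_spec.trans hl.symm)
    simp only [lev, dif_pos hex, this]
  refine ⟨lev, ?_, c, fun x => ?_⟩
  · let pl : Fin P → Fin M := fun i => ⟨ε (pos i), hεM _⟩
    have hset : ((Finset.univ : Finset (Fin M)).filter fun l => (lev l).isLeft) =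
        Finset.univ.image pl := by
      ext l
      simp only [Finset.mem_filter, Finset.mem_univ, true_and, Finset.mem_image]
      constructor
      · intro hl
        by_cases hex : ∃ i, ε (pos i) = (l : ℕ)
        · exact ⟨hex.choose, Fin.ext hex.choose_spec⟩
        · simp only [lev, dif_neg hex] at hl
          split_ifs at hl <;> simp at hl
      · rintro ⟨i, rfl⟩
        rw [hlev_pos i (pl i) rfl]
        rfl
    rw [hset, Finset.card_image_of_injective _ (fun i j hij => hinj i j (congrArg Fin.val hij)),
      Finset.card_univ, Fintype.card_fin]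
  · -- the support of the word shown by `x`
    let zero : Finset (Fin P) := Finset.univ.filter fun i =>
      p x (blk (φ.symm i)).1 (blk (φ.symm i)).2 = 0
    let nb : Finset (Fin (P + Bg)) := (zero.image pos)ᶜ
    let A : Finset ℕ := nb.map ε.toEmbedding
    let spec : Finset (Fin P) := Finset.univ.filter fun i => B x = some (φ.symm i).2.1
    have hspec_nb : ∀ i ∈ spec, pos i ∈ nb := by
      intro i hi
      simp only [spec, Finset.mem_filter] at hi
      have hp : p x (blk (φ.symm i)).1 (blk (φ.symm i)).2 = 2 := (hB _ _ _).2 hi.2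
      simp only [nb, Finset.mem_compl, Finset.mem_image, not_exists, not_and]
      intro j hj hji
      rw [hpos_mono.injective hji] at hj
      simp [zero, hp] at hj
    have hAmem : ∀ a, ε a ∈ A ↔ a ∈ nb := by
      intro a; simp [A]
    let T : Finset ℕ := spec.image fun i => rankIn A (ε (pos i))
    -- weights of the blocks
    let w : Fin q → Fin (d * h) → ℕ := fun j u =>
      if p x j (finProdFinEquiv.symm u).2 = 0 then 0 else 1
    let zc : Fin q → ℕ := fun j => ∑ i, if p x j i = 1 then 1 else 0
    have hwj : ∀ j, ∑ u, w j u = d * (zc j + if B x = some j then h else 0) := by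
      intro j
      rw [← finProdFinEquiv.sum_comp, Fintype.sum_prod_type]
      simp only [w, Equiv.symm_apply_apply, Finset.sum_const, Finset.card_univ, Fintype.card_fin,
        smul_eq_mul]
      congr 1
      by_cases hBj : B x = some j
      · have h2 : ∀ i, p x j i = 2 := fun i => (hB x j i).2 hBj
        simp [zc, h2, hBj]
      · rw [if_neg hBj, add_zero]
        refine Finset.sum_congr rfl fun i _ => ?_
        have h2 : p x j i ≠ 2 := fun h2 => hBj ((hB x j i).1 h2)
        match hv : p x j i with
        | 0 => simp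
        | 1 => simp
        | 2 => exact absurd hv h2
    have hBsum : (∑ j, if B x = some j then h else 0) = h' := by
      simp only [h', ← hb x]
      cases B x with
      | none => simp
      | some j => simp
    have hwsum : ∑ j, ∑ u, w j u = d * (h' + k3) := by
      rw [Finset.sum_congr rfl fun j _ => hwj j, ← Finset.mul_sum, Finset.sum_add_distrib, hBsum,
        hk3 x, add_comm]
    have hcnt : ∀ S : Finset (Fin P), S.card = (S ∩ zero).card +
        ∑ i ∈ S, w (φ.symm i).2.1 (φ.symm i).2.2 := by
      intro S
      rw [← Finset.filter_univ_mem S, ← Finset.filter_and, Finset.card_filter, Finset.card_filter,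
        Finset.sum_filter, ← Finset.sum_add_distrib]
      refine Finset.sum_congr rfl fun i _ => ?_
      simp only [w, zero, blk, Finset.mem_filter, Finset.mem_univ, true_and]
      generalize p x (φ.symm i).2.1 (finProdFinEquiv.symm (φ.symm i).2.2).2 = y
      by_cases hS : i ∈ S <;> by_cases hy : y = 0 <;> simp [hS, hy]
    have hrank : ∀ i ∈ spec, rankIn A (ε (pos i)) =
        Ω * η i + (δ + (∑ j ∈ Finset.Iio (φ.symm i).2.1, zc j) * d) := by
      intro i hi
      have hBi : B x = some (φ.symm i).2.1 := (Finset.mem_filter.1 hi).2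
      have h1 : rankIn A (ε (pos i)) = (nb ∩ Finset.Iio (pos i)).card := by
        rw [rankIn, Finset.filter_map, Finset.card_map]
        congr 1
        ext a
        simp
      have h2 : (nb ∩ Finset.Iio (pos i)).card + (Finset.Iio i ∩ zero).card = (pos i : ℕ) := by
        have e1 : nb ∩ Finset.Iio (pos i) = Finset.Iio (pos i) \ (Finset.Iio i ∩ zero).image pos := by
          ext a
          simp only [nb, Finset.mem_inter, Finset.mem_compl, Finset.mem_image, Finset.mem_Iio,
            Finset.mem_sdiff, not_exists, not_and]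
          constructor
          · exact fun ha => ⟨ha.2, fun j hj => ha.1 j hj.2⟩
          · refine fun ha => ⟨fun j hj hja => ha.2 j ⟨?_, hj⟩ hja, ha.1⟩
            exact hpos_mono.lt_iff_lt.1 (hja ▸ ha.1)
        rw [e1, ← Finset.card_image_of_injective _ hpos_mono.injective,
          Finset.card_sdiff_add_card_eq_card, Fin.card_Iio]
        intro a ha
        obtain ⟨j, hj, rfl⟩ := Finset.mem_image.1 ha
        exact Finset.mem_Iio.2 (hpos_mono (Finset.mem_Iio.1 (Finset.mem_inter.1 hj).1))
      have h3 := hcnt (Finset.Iio i)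
      rw [Fin.card_Iio] at h3
      have h4 : ∑ j ∈ Finset.Iio i, w (φ.symm j).2.1 (φ.symm j).2.2 =
          off i + (∑ j ∈ Finset.Iio (φ.symm i).2.1, zc j) * d := by
        rw [← Finset.filter_gt_eq_Iio, Finset.sum_filter, ← φ.sum_comp]
        have hz : ∀ u, w (φ.symm i).2.1 u = 1 := by
          intro u
          simp only [w]
          rw [(hB _ _ _).2 hBi]
          decide
        have := lex_count w 1 (fun a => (φ a : ℕ)) hord (φ.symm i) hz
        simp only [Equiv.apply_symm_apply] at this
        simp only [Equiv.symm_apply_apply, Fin.lt_def]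
        rw [this, hwsum, mul_one]
        have : ∑ j ∈ Finset.Iio (φ.symm i).2.1, ∑ u, w j u =
            (∑ j ∈ Finset.Iio (φ.symm i).2.1, zc j) * d := by
          rw [Finset.sum_mul]
          refine Finset.sum_congr rfl fun j hj => ?_
          have hne : B x ≠ some j := by
            rw [hBi]
            intro hjj
            exact (Finset.mem_Iio.1 hj).ne (Option.some.inj hjj).symm
          rw [hwj, if_neg hne, add_zero, mul_comm]
        rw [this]
        simp only [off]
        ring
      have h5 : (pos i : ℕ) = i + bg i := rfl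
      have := hbg_eq i
      omega
    have hAcard : A.card = K := by
      have h3 := hcnt (Finset.univ : Finset (Fin P))
      rw [Finset.univ_inter, Finset.card_univ, Fintype.card_fin, ← φ.sum_comp] at h3
      simp only [Equiv.symm_apply_apply] at h3
      simp only [Fintype.sum_prod_type, hwsum, Finset.sum_const, Finset.card_univ,
        Fintype.card_fin, smul_eq_mul] at h3
      rw [← Nat.mul_assoc, hRd] at h3
      rw [Finset.card_map, Finset.card_compl, Fintype.card_fin,
        Finset.card_image_of_injective _ hpos_mono.injective]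
      simp only [K]
      omega
    have hAH : A ⊆ H1 := by
      intro a ha
      obtain ⟨b, -, rfl⟩ := Finset.mem_map.1 ha
      exact H1.orderEmbOfFin_mem hH1c b
    have hTK : T ∈ (Finset.range K).powerset := by
      rw [Finset.mem_powerset]
      intro t ht
      obtain ⟨i, hi, rfl⟩ := Finset.mem_image.1 ht
      rw [Finset.mem_range, ← hAcard]
      exact rankIn_lt ((hAmem _).2 (hspec_nb i hi))
    have hgw : g (fun l => levelState p x (lev l)) = ψ' T := by
      have hG := congrFun (hψ A hAH hAcard) ⟨T, hTK⟩
      simp only [ψ', dif_pos hTK]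
      rw [← hG]
      simp only [G]
      congr 1
      funext l
      by_cases hex : ∃ i, ε (pos i) = (l : ℕ)
      · obtain ⟨i, hi⟩ := hex
        rw [hlev_pos i l hi, ← hi]
        simp only [levelState, Sum.elim_inl, hAmem]
        by_cases hp : p x (blk (φ.symm i)).1 (blk (φ.symm i)).2 = 0
        · have : pos i ∉ nb := by
            simp only [nb, Finset.mem_compl, not_not]
            exact Finset.mem_image_of_mem pos (by simp [zero, hp])
          simp [hp, this]
        · have hin : pos i ∈ nb := by
            simp only [nb, Finset.mem_compl, Finset.mem_image, not_exists, not_and]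
            intro j hj hji
            rw [hpos_mono.injective hji] at hj
            exact hp (Finset.mem_filter.1 hj).2
          rw [if_pos hin]
          have hT' : rankIn A (ε (pos i)) ∈ T ↔ i ∈ spec := by
            constructor
            · intro ht
              obtain ⟨j, hj, hjr⟩ := Finset.mem_image.1 ht
              have := hinj _ _ (rankIn_inj ((hAmem _).2 (hspec_nb j hj)) ((hAmem _).2 hin) hjr)
              rwa [← this]
            · exact fun hs' => Finset.mem_image_of_mem _ hs'
          by_cases hsp : i ∈ spec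
          · rw [if_pos (hT'.2 hsp)]
            exact (hB _ _ _).2 (Finset.mem_filter.1 hsp).2
          · rw [if_neg fun ht => hsp (hT'.1 ht)]
            have h2 : p x (blk (φ.symm i)).1 (blk (φ.symm i)).2 ≠ 2 := fun h2 =>
              hsp (Finset.mem_filter.2 ⟨Finset.mem_univ _, (hB _ _ _).1 h2⟩)
            match hv : p x (blk (φ.symm i)).1 (blk (φ.symm i)).2 with
            | 0 => exact absurd hv hp
            | 1 => rfl
            | 2 => exact absurd hv h2
      · simp only [lev, dif_neg hex]
        by_cases hl : (l : ℕ) ∈ H1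
        · obtain ⟨a, ha⟩ : ∃ a, ε a = (l : ℕ) := by
            have : (l : ℕ) ∈ Set.range ε := by
              simpa [ε, Finset.range_orderEmbOfFin] using hl
            exact this
          have hin : a ∈ nb := by
            simp only [nb, Finset.mem_compl, Finset.mem_image, not_exists, not_and]
            intro j _ hja
            exact hex ⟨j, by rw [hja, ha]⟩
          rw [if_pos hl, ← ha, if_pos ((hAmem a).2 hin)]
          have : rankIn A (ε a) ∉ T := by
            intro ht
            obtain ⟨j, hj, hjr⟩ := Finset.mem_image.1 ht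
            have := ε.injective (rankIn_inj ((hAmem _).2 (hspec_nb j hj)) ((hAmem _).2 hin) hjr)
            exact hex ⟨j, by rw [this, ha]⟩
          rw [if_neg this]
          rfl
        · rw [if_neg hl, if_neg (fun h => hl (hAH h))]
          rfl
    rw [hgw]
    -- the common colour
    obtain ⟨N, hNk, hN⟩ : ∃ N, N ≤ k3 ∧
        T = (spec.image fun i => η i).image fun y => Ω * y + (δ + N * d) := by
      cases hBx : B x with
      | none =>
        refine ⟨0, Nat.zero_le _, ?_⟩
        have : spec = ∅ := by simp [spec, hBx]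
        simp [T, this]
      | some j =>
        refine ⟨∑ j' ∈ Finset.Iio j, zc j', ?_, ?_⟩
        · exact le_of_le_of_eq
            (Finset.sum_le_sum_of_subset (Finset.subset_univ _)) (hk3 x)
        · rw [Finset.image_image]
          refine Finset.image_congr fun i hi => ?_
          have hi' : i ∈ spec := hi
          rw [hrank i hi']
          have : (φ.symm i).2.1 = j := by
            have := (Finset.mem_filter.1 hi').2
            rw [hBx] at this
            exact (Option.some.inj this).symm
          rw [this]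
          rfl
    have hb1 : δ + N * d ≤ Γ := le_trans (by nlinarith) hδ
    have hsub : (spec.image fun i => η i) ⊆ H2 := by
      intro y hy
      obtain ⟨i, -, rfl⟩ := Finset.mem_image.1 hy
      exact H2.orderEmbOfFin_mem hH2c i
    have hscard : (spec.image fun i => η i).card = s * h' := by
      rw [Finset.card_image_of_injective _ η.injective, Finset.card_filter, ← φ.sum_comp]
      simp only [Equiv.symm_apply_apply]
      rw [Fintype.sum_prod_type]
      have e : ∀ l : Fin R, (∑ y : Fin q × Fin (d * h), if B x = some (l, y).2.1 then 1 else 0) =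
          ∑ j : Fin q, d * h * (if B x = some j then 1 else 0) := fun l => by
        rw [Fintype.sum_prod_type]
        refine Finset.sum_congr rfl fun j _ => ?_
        by_cases hj : B x = some j <;> simp [hj]
      rw [Finset.sum_congr rfl fun l _ => e l, Finset.sum_const, Finset.card_univ,
        Fintype.card_fin, smul_eq_mul]
      have : ∑ j, d * h * (if B x = some j then 1 else 0) = d * h' := by
        rw [← hBsum, Finset.mul_sum]
        refine Finset.sum_congr rfl fun j _ => ?_
        split <;> simp
      rw [this, ← Nat.mul_assoc, hRd]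
    have hcN := congrFun (hv _ hsub hscard) ⟨δ + N * d, by omega⟩
    rw [hN, hcN, ← hc N hNk]
    congr 1
    exact Fin.ext (min_eq_left hb1).symm

end Vale.Agent.P058
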