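import Vale.Agent.P058.Witness
import Vale.Agent.P058.Layout

open Finset

namespace Vale.Agent.P058

variable {n : ℕ} {X : Finset (Euc n)}

theorem exists_blocks (G : Subgroup (Equiv.Perm X)) [Fintype G] (cls : X → Fin 3)
    (htr : ∀ x y : X, ∃ g ∈ G, g x = y)
    (hbl : ∀ g ∈ G, ∀ x, cls x = 2 → cls (g x) = 2 → ∀ y, cls y = 2 → cls (g y) = 2) :
    ∃ (q h : ℕ) (e : G ≃ Fin q × Fin h),
      (∀ τ τ' : G, ∀ x, cls (τ.1 x) = 2 → cls (τ'.1 x) = 2 → (e τ).1 = (e τ').1) ∧
      (∀ τ τ' : G, ∀ x, (e τ).1 = (e τ').1 → cls (τ.1 x) = 2 → cls (τ'.1 x) = 2) := by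
  classical
  by_cases hW : ∃ w, cls w = 2
  · obtain ⟨w0, hw0⟩ := hW
    let u : G → Finset X := fun τ => Finset.univ.filter fun y => cls (τ.1 y) = 2
    have key : ∀ τ τ' : G, ∀ x, cls (τ.1 x) = 2 → cls (τ'.1 x) = 2 → u τ = u τ' := by
      have half : ∀ τ τ' : G, ∀ x, cls (τ.1 x) = 2 → cls (τ'.1 x) = 2 →
          ∀ y, cls (τ.1 y) = 2 → cls (τ'.1 y) = 2 := by
        intro τ τ' x h1 h2 y h3
        have := hbl (τ'.1 * τ.1⁻¹) (G.mul_mem τ'.2 (G.inv_mem τ.2)) (τ.1 x) h1 (by simpa using h2)
          (τ.1 y) h3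
        simpa using this
      intro τ τ' x h1 h2
      ext y
      simp only [u, Finset.mem_filter, Finset.mem_univ, true_and]
      exact ⟨half τ τ' x h1 h2 y, half τ' τ x h2 h1 y⟩
    let U := Finset.univ.image u
    let u' : G → U := fun τ => ⟨u τ, Finset.mem_image_of_mem _ (Finset.mem_univ _)⟩
    let h := (Finset.univ.filter fun τ : G => cls (τ.1 w0) = 2).card
    have hfib : ∀ b : U, Fintype.card {τ : G // u' τ = b} = h := by
      intro b
      obtain ⟨τ0, -, hτ0⟩ := Finset.mem_image.1 b.2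
      let z := τ0.1⁻¹ w0
      have hz : cls (τ0.1 z) = 2 := by simpa [z] using hw0
      obtain ⟨g, hg, hgz⟩ := htr z w0
      rw [Fintype.card_subtype]
      refine Finset.card_equiv (Equiv.mulRight (⟨g, hg⟩⁻¹ : G)) fun τ => ?_
      have hback : g⁻¹ w0 = z := by rw [← hgz]; simp
      simp only [Finset.mem_filter, Finset.mem_univ, true_and, Equiv.coe_mulRight,
        Subgroup.coe_mul, InvMemClass.coe_inv, Equiv.Perm.mul_apply, hback]
      constructor
      · intro hb
        have : u τ = u τ0 := (congrArg Subtype.val hb).trans hτ0.symm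
        have : z ∈ u τ := by rw [this]; simp [u, hz]
        simpa [u] using this
      · intro hc
        exact Subtype.ext ((key τ τ0 z hc hz).trans hτ0)
    let e : G ≃ Fin U.card × Fin h :=
      (((Equiv.sigmaFiberEquiv u').symm.trans
        (Equiv.sigmaCongrRight fun b => Fintype.equivFinOfCardEq (hfib b))).trans
          (Equiv.sigmaEquivProd U (Fin h))).trans (Equiv.prodCongr U.equivFin (Equiv.refl _))
    have he : ∀ τ, (e τ).1 = U.equivFin (u' τ) := fun τ => rfl
    refine ⟨U.card, h, e, fun τ τ' x h1 h2 => ?_, fun τ τ' x hee h1 => ?_⟩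
    · rw [he, he]
      exact congrArg U.equivFin (Subtype.ext (key τ τ' x h1 h2))
    · rw [he, he, EmbeddingLike.apply_eq_iff_eq] at hee
      have h' : u τ = u τ' := congrArg Subtype.val hee
      have : x ∈ u τ' := by
        rw [← h']
        simp [u, h1]
      simpa [u] using this
  · push Not at hW
    refine ⟨Fintype.card G, 1, (Fintype.equivFin G).trans (Equiv.prodUnique _ (Fin 1)).symm,
      fun τ τ' x h1 _ => absurd h1 (hW _), fun τ τ' x _ h1 => absurd h1 (hW _)⟩

/-- Joining `M` scaled level points to one point. -/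
noncomputable def joinLevels (M D : ℕ) (t : ℝ) (w : Fin M → Euc D) : Euc (M * D + 1) :=
  padL 1 (WithLp.toLp 2 fun i => t * w (finProdFinEquiv.symm i).1 (finProdFinEquiv.symm i).2)

theorem dist_joinLevels (M D : ℕ) (t : ℝ) (w w' : Fin M → Euc D) :
    dist (joinLevels M D t w) (joinLevels M D t w') ^ 2 =
      t ^ 2 * ∑ l, dist (w l) (w' l) ^ 2 := by
  rw [joinLevels, joinLevels, dist_padL, EuclideanSpace.dist_eq,
    Real.sq_sqrt (Finset.sum_nonneg fun i _ => sq_nonneg _), ← finProdFinEquiv.sum_comp,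
    Fintype.sum_prod_type, Finset.mul_sum]
  refine Finset.sum_congr rfl fun l _ => ?_
  rw [EuclideanSpace.dist_eq, Real.sq_sqrt (Finset.sum_nonneg fun i _ => sq_nonneg _),
    Finset.mul_sum]
  refine Finset.sum_congr rfl fun i _ => ?_
  simp only [Equiv.symm_apply_apply, Real.dist_eq, sq_abs]
  ring

theorem core (G : Subgroup (Equiv.Perm X)) (cls : X → Fin 3)
    (hiso : ∀ g ∈ G, ∀ x y : X, dist ((g x : X) : Euc n) (g y : X) = dist (x : Euc n) y)
    (htr : ∀ x y : X, ∃ g ∈ G, g x = y)
    (hbl : ∀ g ∈ G, ∀ x, cls x = 2 → cls (g x) = 2 → ∀ y, cls y = 2 → cls (g y) = 2)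
    {y0 z0 : X} (hy0 : cls y0 = 0) (hz0 : cls z0 = 1) (h : ClassRamsey X cls) : IsRamsey X := by
  classical
  refine ⟨⟨y0, y0.2⟩, fun r hr => ?_⟩
  let _ : Fintype G := Fintype.ofFinite G
  obtain ⟨q, hh, e, he1, he2⟩ := exists_blocks G cls htr hbl
  let p : X → Fin q → Fin hh → Fin 3 := fun x j i => cls ((e.symm (j, i)).1 x)
  let B : X → Option (Fin q) := fun x =>
    if hx : ∃ τ : G, cls (τ.1 x) = 2 then some (e hx.choose).1 else none
  have hB : ∀ x j i, p x j i = 2 ↔ B x = some j := by
    intro x j i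
    constructor
    · intro hp
      have hx : ∃ τ : G, cls (τ.1 x) = 2 := ⟨_, hp⟩
      simp only [B, dif_pos hx]
      rw [he1 hx.choose (e.symm (j, i)) x hx.choose_spec hp]
      simp
    · intro hBx
      simp only [B] at hBx
      split at hBx
      · rename_i hx
        refine he2 hx.choose (e.symm (j, i)) x ?_ hx.choose_spec
        simpa using Option.some.inj hBx
      · simp at hBx
  have hb : ∀ x, (B x).isSome = decide (∃ w, cls w = 2) := by
    intro x
    by_cases hw : ∃ w, cls w = 2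
    · obtain ⟨w, hw2⟩ := hw
      obtain ⟨g, hg, hgw⟩ := htr x w
      have hx : ∃ τ : G, cls (τ.1 x) = 2 := ⟨⟨g, hg⟩, by rw [hgw]; exact hw2⟩
      rw [decide_eq_true (⟨w, hw2⟩ : ∃ w, cls w = 2)]
      simp only [B, dif_pos hx]
      rfl
    · rw [decide_eq_false hw]
      have hx : ¬∃ τ : G, cls (τ.1 x) = 2 := fun ⟨τ, hτ⟩ => hw ⟨_, hτ⟩
      simp only [B, dif_neg hx]
      rfl
  have hcount : ∀ x, ∑ j, ∑ i, (if p x j i = 1 then 1 else 0) =
      (Finset.univ.filter fun τ : G => cls (τ.1 y0) = 1).card := by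
    intro x
    obtain ⟨g, hg, hgx⟩ := htr x y0
    rw [← Fintype.sum_prod_type', ← e.sum_comp, Finset.card_filter,
      ← Equiv.sum_comp (Equiv.mulRight (⟨g, hg⟩ : G))]
    refine Finset.sum_congr rfl fun τ _ => ?_
    simp [p, hgx]
  have hq : 0 < q := (e 1).1.pos
  have hhh : 0 < hh := (e 1).2.pos
  have : Nonempty (Fin r) := ⟨⟨0, by omega⟩⟩
  obtain ⟨P, M, hP, hlay⟩ := layout hq hhh p B hB _ hb hcount (Fin r)
  obtain ⟨D, hD⟩ := nested h ⟨y0⟩ M (Fin r)
  refine ⟨M * D + 1, by omega, fun c => ?_⟩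
  let t : ℝ := (Real.sqrt P)⁻¹
  obtain ⟨f, hf, hfm⟩ := hD fun w => c (joinLevels M D t w)
  let rep : Fin 3 → X := fun i => if hi : ∃ x, cls x = i then hi.choose else y0
  have hrep : ∀ x, cls (rep (cls x)) = cls x := by
    intro x
    have hi : ∃ y, cls y = cls x := ⟨x, rfl⟩
    simp only [rep, dif_pos hi]
    exact hi.choose_spec
  obtain ⟨lev, hcard, col, hcol⟩ :=
    hlay fun ω => c (joinLevels M D t fun l => f l (rep (ω l)))
  let st : X → Fin M → X := fun x l =>
    Sum.elim (fun b => (e.symm b).1 x) (fun b => if b then z0 else y0) (lev l)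
  have hst : ∀ x l, cls (st x l) = levelState p x (lev l) := by
    intro x l
    simp only [st, levelState]
    rcases lev l with b | b
    · rfl
    · cases b <;> simp [hy0, hz0]
  refine ⟨fun x => joinLevels M D t fun l => f l (st x l), fun x y => ?_, fun x y => ?_⟩
  · have hsum : ∑ l, dist (f l (st x l)) (f l (st y l)) ^ 2 = (P : ℝ) * dist (x : Euc n) y ^ 2 := by
      have hl : ∀ l, dist (f l (st x l)) (f l (st y l)) ^ 2 =
          if (lev l).isLeft then dist (x : Euc n) y ^ 2 else 0 := by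
        intro l
        rw [hf]
        simp only [st]
        rcases lev l with b | b
        · simp [hiso _ (e.symm b).2]
        · simp
      rw [Finset.sum_congr rfl fun l _ => hl l, ← Finset.sum_filter, Finset.sum_const, hcard,
        nsmul_eq_mul]
    rw [← sq_eq_sq₀ dist_nonneg dist_nonneg, dist_joinLevels, hsum, ← mul_assoc]
    have : t ^ 2 * (P : ℝ) = 1 := by
      have hP' : (0 : ℝ) < P := Nat.cast_pos.2 hP
      simp only [t, inv_pow, Real.sq_sqrt hP'.le]
      exact inv_mul_cancel₀ hP'.ne'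
    rw [this, one_mul]
  · have hc : ∀ z, c (joinLevels M D t fun l => f l (st z l)) = col := by
      intro z
      rw [← hcol z]
      refine (hfm (st z) _ fun l => ?_).trans rfl
      simp only [← hst, hrep]
    rw [hc x, hc y]

theorem ramsey_of_all_mono (cls : X → Fin 3) (hne : X.Nonempty) (hall : ∀ x y, cls x = cls y)
    (h : ClassRamsey X cls) : IsRamsey X := by
  refine ⟨hne, fun r hr => ?_⟩
  obtain ⟨D, hD⟩ := h r hr
  refine ⟨D + 1, by omega, fun c => ?_⟩
  obtain ⟨f, hf, hm⟩ := hD fun v => c (padL 1 v)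
  exact ⟨fun x => padL 1 (f x), fun x y => by rw [dist_padL, hf],
    fun x y => hm x y (hall x y)⟩

theorem classRamsey_mono {cls cls' : X → Fin 3} (hle : ∀ x y, cls' x = cls' y → cls x = cls y)
    (h : ClassRamsey X cls) : ClassRamsey X cls' := by
  intro r hr
  obtain ⟨D, hD⟩ := h r hr
  refine ⟨D, fun c => ?_⟩
  obtain ⟨f, hf, hm⟩ := hD c
  exact ⟨f, hf, fun x y hxy => hm x y (hle x y hxy)⟩

theorem ramsey_of_classes (G : Subgroup (Equiv.Perm X)) (hne : X.Nonempty) (cls : X → Fin 3)
    (hiso : ∀ g ∈ G, ∀ x y : X, dist ((g x : X) : Euc n) (g y : X) = dist (x : Euc n) y)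
    (htr : ∀ x y : X, ∃ g ∈ G, g x = y)
    (hbl : ∀ g ∈ G, ∀ x, cls x = 2 → cls (g x) = 2 → ∀ y, cls y = 2 → cls (g y) = 2)
    (h : ClassRamsey X cls) : IsRamsey X := by
  classical
  by_cases hall : ∀ x y, cls x = cls y
  · exact ramsey_of_all_mono cls hne hall h
  by_cases h01 : (∃ y, cls y = 0) ∧ (∃ z, cls z = 1)
  · obtain ⟨⟨y0, hy⟩, ⟨z0, hz⟩⟩ := h01
    exact core G cls hiso htr hbl hy hz h
  have huni : ∀ x y, cls x ≠ 2 → cls y ≠ 2 → cls x = cls y := by
    intro x y hx hy
    by_contra hxy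
    apply h01
    rcases (by omega : cls x = 0 ∨ cls x = 1) with hx' | hx' <;>
      rcases (by omega : cls y = 0 ∨ cls y = 1) with hy' | hy'
    · exact absurd (hx'.trans hy'.symm) hxy
    · exact ⟨⟨x, hx'⟩, ⟨y, hy'⟩⟩
    · exact ⟨⟨y, hy'⟩, ⟨x, hx'⟩⟩
    · exact absurd (hx'.trans hy'.symm) hxy
  obtain ⟨a, ha⟩ : ∃ a, cls a ≠ 2 := by
    by_contra hno
    push Not at hno
    exact hall fun x y => (hno x).trans (hno y).symm
  by_cases hb : ∃ b, b ≠ a ∧ cls b ≠ 2
  · obtain ⟨b, hba, hb2⟩ := hb
    let cls' : X → Fin 3 := fun x => if x = a then 0 else if cls x = 2 then 2 else 1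
    have h2 : ∀ x, cls' x = 2 ↔ cls x = 2 := by
      intro x
      simp only [cls']
      by_cases hxa : x = a
      · subst hxa; simp [ha]
      · by_cases hx : cls x = 2 <;> simp [hxa, hx]
    refine core G cls' hiso htr ?_ (y0 := a) (z0 := b) (by simp [cls'])
      (by simp [cls', hba, hb2]) (classRamsey_mono ?_ h)
    · intro g hg x hx hgx y hy
      rw [h2] at hx hgx hy ⊢
      exact hbl g hg x hx hgx y hy
    · intro x y hxy
      by_cases hx : cls x = 2
      · rw [(h2 x).2 hx] at hxy
        rw [hx, (h2 y).1 hxy.symm]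
      · refine huni x y hx fun hy => hx ?_
        rw [(h2 y).2 hy] at hxy
        exact (h2 x).1 hxy
  · push Not at hb
    obtain ⟨w, hw⟩ : ∃ w, w ≠ a := by
      by_contra hno
      push Not at hno
      exact hall fun x y => by rw [hno x, hno y]
    let cls' : X → Fin 3 := fun x => if x = a then 0 else 1
    refine core G cls' hiso htr ?_ (y0 := a) (z0 := w) (by simp [cls']) (by simp [cls', hw])
      (classRamsey_mono ?_ h)
    · intro g hg x hx
      simp only [cls'] at hx
      split at hx <;> simp at hx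
    · intro x y hxy
      simp only [cls'] at hxy
      by_cases hxa : x = a <;> by_cases hya : y = a
      · rw [hxa, hya]
      · simp [hxa, hya] at hxy
      · simp [hxa, hya] at hxy
      · rw [hb x hxa, hb y hya]

theorem exists_global_isometry {N : ℕ} {ι : Type} (P Q : ι → Euc N)
    (hPQ : ∀ i j, dist (P i) (P j) = dist (Q i) (Q j)) (s : Finset ι) :
    ∃ φ : Euc N → Euc N, (∀ v w, dist (φ v) (φ w) = dist v w) ∧ ∀ i ∈ s, φ (P i) = Q i := by
  classical
  induction s using Finset.induction with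
  | empty => exact ⟨id, fun v w => rfl, by simp⟩
  | insert a s _ ih =>
    obtain ⟨φ, hφ, hφs⟩ := ih
    let m : Euc N := (2 : ℝ)⁻¹ • (φ (P a) + Q a)
    let R := (Submodule.span ℝ {φ (P a) - Q a})ᗮ.reflection
    refine ⟨fun v => m + R (φ v - m), fun v w => ?_, fun i hi => ?_⟩
    · rw [dist_add_left, R.dist_map, dist_sub_right, hφ]
    · show m + R (φ (P i) - m) = Q i
      rcases Finset.mem_insert.1 hi with rfl | hi
      · have hneg : R (φ (P i) - Q i) = -(φ (P i) - Q i) :=
          Submodule.reflection_orthogonalComplement_singleton_eq_neg _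
        have hm : φ (P i) - m = (2 : ℝ)⁻¹ • (φ (P i) - Q i) := by
          simp only [m]; module
        rw [hm, map_smul, hneg]
        simp only [m]; module
      · have hfix : R (φ (P i) - m) = φ (P i) - m := by
          refine Submodule.reflection_mem_subspace_eq_self ?_
          rw [Submodule.mem_orthogonal_singleton_iff_inner_right]
          have hd : ‖φ (P i) - φ (P a)‖ = ‖φ (P i) - Q a‖ := by
            rw [← dist_eq_norm, ← dist_eq_norm, hφ, hPQ, hφs i hi]
          have hd2 : ‖φ (P i) - φ (P a)‖ ^ 2 = ‖φ (P i) - Q a‖ ^ 2 := by rw [hd]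
          rw [norm_sub_sq_real, norm_sub_sq_real] at hd2
          simp only [m, inner_sub_left, inner_sub_right, inner_smul_right, inner_add_right,
            real_inner_self_eq_norm_sq]
          rw [real_inner_comm (φ (P i)) (φ (P a)), real_inner_comm (φ (P i)) (Q a),
            real_inner_comm (φ (P a)) (Q a)]
          nlinarith [hd2]
        rw [hfix, add_sub_cancel, hφs i hi]

/-- A transitive set which is Ramsey after deleting two of its points is Ramsey. -/
theorem ramsey_of_delete_two (hX : IsTransitiveSet X) (a b : Euc n)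
    (h : IsRamsey ((X.erase a).erase b)) : IsRamsey X := by
  classical
  let G : Subgroup (Equiv.Perm X) :=
    { carrier := {g | ∀ x y : X, dist ((g x : X) : Euc n) (g y : X) = dist (x : Euc n) y}
      mul_mem' := fun {g g'} hg hg' x y => by
        rw [Equiv.Perm.mul_apply, Equiv.Perm.mul_apply, hg, hg']
      one_mem' := fun x y => rfl
      inv_mem' := fun {g} hg x y => by
        have := hg (g⁻¹ x) (g⁻¹ y)
        simpa using this.symm }
  have hne : X.Nonempty := h.1.mono ((Finset.erase_subset _ _).trans (Finset.erase_subset _ _))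
  let cls : X → Fin 3 := fun x => if (x : Euc n) = b then 2 else if (x : Euc n) = a then 1 else 0
  refine ramsey_of_classes G hne cls (fun g hg => hg) ?_ ?_ ?_
  · intro x y
    obtain ⟨φ, hφ, hxy⟩ := hX x x.2 y y.2
    have hmem : ∀ z, z ∈ X ↔ φ z ∈ X := by
      intro z
      constructor
      · intro hz
        have : φ z ∈ φ '' (X : Set (Euc n)) := Set.mem_image_of_mem _ hz
        rw [hφ] at this
        exact this
      · intro hz
        have h' : φ z ∈ φ '' (X : Set (Euc n)) := by rw [hφ]; exact hz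
        obtain ⟨z', hz', he⟩ := h'
        rwa [← φ.injective he]
    exact ⟨φ.toEquiv.subtypeEquiv hmem, fun u v => φ.dist_eq _ _, Subtype.ext hxy⟩
  · intro g _ x hx hgx y hy
    have hb : ∀ z : X, cls z = 2 → (z : Euc n) = b := by
      intro z hz
      by_contra hzb
      simp only [cls, if_neg hzb] at hz
      split at hz <;> simp at hz
    have : y = x := Subtype.ext ((hb y hy).trans (hb x hx).symm)
    rw [this, hgx]
  · intro r hr
    obtain ⟨D, -, hD⟩ := h.2 r hr
    refine ⟨n + D, fun c => ?_⟩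
    obtain ⟨f, hf, hm⟩ := hD fun v => c (padR n v)
    let S := (X.erase a).erase b
    obtain ⟨φ, hφ, hφS⟩ := exists_global_isometry (fun x : S => padL D (x : Euc n))
      (fun x => padR n (f x)) (fun x y => by rw [dist_padL, dist_padR, hf]) Finset.univ
    refine ⟨fun x => φ (padL D (x : Euc n)), fun x y => by rw [hφ, dist_padL], ?_⟩
    intro x y hxy
    by_cases hxb : (x : Euc n) = b
    · have hyb : (y : Euc n) = b := by
        by_contra hyb
        by_cases hya : (y : Euc n) = a <;> simp [cls, hxb, hyb, hya] at hxy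
        all_goals simp_all
      rw [show x = y from Subtype.ext (hxb.trans hyb.symm)]
    by_cases hxa : (x : Euc n) = a
    · have hya : (y : Euc n) = a := by
        by_contra hya
        by_cases hyb : (y : Euc n) = b <;> simp [cls, hxb, hxa, hyb, hya] at hxy
        all_goals simp_all
      rw [show x = y from Subtype.ext (hxa.trans hya.symm)]
    have hyb : (y : Euc n) ≠ b := by
      intro hyb; simp [cls, hxb, hxa, hyb] at hxy
    have hya : (y : Euc n) ≠ a := by
      intro hya; simp [cls, hxb, hxa, hyb, hya] at hxy; simp_all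
    have memS : ∀ z : X, (z : Euc n) ≠ b → (z : Euc n) ≠ a → (z : Euc n) ∈ S := by
      intro z h1 h2; simp [S, h1, h2, z.2]
    have e1 : φ (padL D (x : Euc n)) = padR n (f ⟨x, memS x hxb hxa⟩) :=
      hφS ⟨x, memS x hxb hxa⟩ (Finset.mem_univ _)
    have e2 : φ (padL D (y : Euc n)) = padR n (f ⟨y, memS y hyb hya⟩) :=
      hφS ⟨y, memS y hyb hya⟩ (Finset.mem_univ _)
    simp only [e1, e2]
    exact hm _ _

end Vale.Agent.P058
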