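import Vale.Agent.P058.Defs

open Finset

namespace Vale.Agent.P058

variable {n : ℕ} {X : Finset (Euc n)}

/-- Every colouring with finitely many colours has a copy of `X` on which each class of `cls`
is monochromatic. -/
def ClassRamsey (X : Finset (Euc n)) (cls : X → Fin 3) : Prop :=
  ∀ r : ℕ, 2 ≤ r → ∃ D : ℕ, ∀ c : Euc D → Fin r, ∃ f : X → Euc D,
    (∀ x y : X, dist (f x) (f y) = dist (x : Euc n) y) ∧
    ∀ x y : X, cls x = cls y → c (f x) = c (f y)

theorem finite_witness {cls : X → Fin 3} (h : ClassRamsey X cls) (κ : Type) [Finite κ] :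
    ∃ D : ℕ, ∃ A : Finset (Euc D), ∀ c : Euc D → κ, ∃ f : X → Euc D, (∀ x, f x ∈ A) ∧
      (∀ x y : X, dist (f x) (f y) = dist (x : Euc n) y) ∧
      ∀ x y : X, cls x = cls y → c (f x) = c (f y) := by
  classical
  let _ : Fintype κ := Fintype.ofFinite κ
  set r := Fintype.card κ + 2 with hr
  obtain ⟨D, hD⟩ := h r (by omega)
  let Copies : Type := {f : X → Euc D // ∀ x y : X, dist (f x) (f y) = dist (x : Euc n) y}
  let U : Copies → Set (Euc D → Fin r) := fun f =>
    ⋂ x : X, ⋂ y : X, {c | cls x = cls y → c (f.1 x) = c (f.1 y)}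
  have hopen : ∀ f, IsOpen (U f) := by
    intro f
    refine isOpen_iInter_of_finite fun x => isOpen_iInter_of_finite fun y => ?_
    by_cases hxy : cls x = cls y
    · have : Continuous fun c : Euc D → Fin r => (c (f.1 x), c (f.1 y)) :=
        (continuous_apply _).prodMk (continuous_apply _)
      simpa [hxy] using (isOpen_discrete {p : Fin r × Fin r | p.1 = p.2}).preimage this
    · simp [hxy]
  have hcov : (Set.univ : Set (Euc D → Fin r)) ⊆ ⋃ f, U f := by
    intro c _
    obtain ⟨f, hf, hm⟩ := hD c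
    refine Set.mem_iUnion.2 ⟨⟨f, hf⟩, ?_⟩
    simp only [U, Set.mem_iInter, Set.mem_ofPred_eq]
    exact hm
  obtain ⟨t, ht⟩ := isCompact_univ.elim_finite_subcover U hopen hcov
  refine ⟨D, t.biUnion fun f => Finset.univ.image f.1, fun c => ?_⟩
  let e : κ → Fin r := fun a => Fin.castLE (by omega) (Fintype.equivFin κ a)
  have he : Function.Injective e :=
    (Fin.castLE_injective _).comp (Fintype.equivFin κ).injective
  obtain ⟨f, hft, hfU⟩ := Set.mem_iUnion₂.1 (ht (Set.mem_univ (e ∘ c)))
  refine ⟨f.1, fun x => ?_, f.2, fun x y hxy => ?_⟩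
  · exact Finset.mem_biUnion.2 ⟨f, hft, Finset.mem_image_of_mem _ (Finset.mem_univ _)⟩
  · simp only [U, Set.mem_iInter, Set.mem_ofPred_eq] at hfU
    exact he (hfU x y hxy)

/-- Padding by zeros on the right. -/
noncomputable def padL {a : ℕ} (b : ℕ) (v : Euc a) : Euc (a + b) :=
  WithLp.toLp 2 (Fin.append (fun i => v i) (fun _ => 0))

/-- Padding by zeros on the left. -/
noncomputable def padR (a : ℕ) {b : ℕ} (v : Euc b) : Euc (a + b) :=
  WithLp.toLp 2 (Fin.append (fun _ => 0) (fun i => v i))

theorem dist_padL {a b : ℕ} (v w : Euc a) : dist (padL b v) (padL b w) = dist v w := by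
  simp [EuclideanSpace.dist_eq, padL, Fin.sum_univ_add]

theorem dist_padR {a b : ℕ} (v w : Euc b) : dist (padR a v) (padR a w) = dist v w := by
  simp [EuclideanSpace.dist_eq, padR, Fin.sum_univ_add]

/-- The nested product argument. -/
theorem nested {cls : X → Fin 3} (h : ClassRamsey X cls) (hX : Nonempty X) :
    ∀ (M : ℕ) (κ : Type) [Finite κ], ∃ D : ℕ, ∀ c : (Fin M → Euc D) → κ,
      ∃ f : Fin M → X → Euc D, (∀ l, ∀ x y : X, dist (f l x) (f l y) = dist (x : Euc n) y) ∧
        ∀ u u' : Fin M → X, (∀ l, cls (u l) = cls (u' l)) →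
          c (fun l => f l (u l)) = c (fun l => f l (u' l)) := by
  classical
  suffices H : ∀ (M : ℕ) (κ : Type) [Finite κ], ∃ D : ℕ, ∃ A : Finset (Euc D),
      ∀ c : (Fin M → Euc D) → κ,
      ∃ f : Fin M → X → Euc D, (∀ l x, f l x ∈ A) ∧
        (∀ l, ∀ x y : X, dist (f l x) (f l y) = dist (x : Euc n) y) ∧
        ∀ u u' : Fin M → X, (∀ l, cls (u l) = cls (u' l)) →
          c (fun l => f l (u l)) = c (fun l => f l (u' l)) by
    intro M κ _
    obtain ⟨D, A, hA⟩ := H M κ
    exact ⟨D, fun c => let ⟨f, _, h2, h3⟩ := hA c; ⟨f, h2, h3⟩⟩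
  intro M
  induction M with
  | zero =>
    intro κ _
    refine ⟨0, ∅, fun c => ⟨fun l => l.elim0, fun l => l.elim0, fun l => l.elim0, ?_⟩⟩
    intro u u' _
    congr 1
    funext l
    exact l.elim0
  | succ M ih =>
    intro κ _
    obtain ⟨D1, A1, hA1⟩ := ih (Fin 3 → κ)
    obtain ⟨D0, A0, hA0⟩ := finite_witness h ((Fin M → A1) → κ)
    refine ⟨D0 + D1, A0.image (padL D1) ∪ A1.image (padR D0), fun c => ?_⟩
    let c0 : Euc D0 → (Fin M → A1) → κ := fun a w =>
      c (Fin.cons (padL D1 a) (fun l => padR D0 (w l : Euc D1)))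
    obtain ⟨f0, hf0A, hf0, hf0m⟩ := hA0 c0
    let a : X := Classical.choice hX
    let rep : Fin 3 → X := fun i => if h : ∃ x, cls x = i then h.choose else a
    have hrep : ∀ x, cls (rep (cls x)) = cls x := by
      intro x
      have he : ∃ y, cls y = cls x := ⟨x, rfl⟩
      simp only [rep, dif_pos he]
      exact he.choose_spec
    let c1 : (Fin M → Euc D1) → Fin 3 → κ := fun w i =>
      if hw : ∀ l, w l ∈ A1 then c0 (f0 (rep i)) (fun l => ⟨w l, hw l⟩)
      else c (fun _ => padL D1 (f0 a))
    obtain ⟨f1, hf1A, hf1, hf1m⟩ := hA1 c1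
    refine ⟨Fin.cons (fun x => padL D1 (f0 x)) (fun l x => padR D0 (f1 l x)), ?_, ?_, ?_⟩
    · intro l x
      induction l using Fin.cases with
      | zero =>
        simp only [Fin.cons_zero, Finset.mem_union, Finset.mem_image]
        exact Or.inl ⟨_, hf0A x, rfl⟩
      | succ l =>
        simp only [Fin.cons_succ, Finset.mem_union, Finset.mem_image]
        exact Or.inr ⟨_, hf1A l x, rfl⟩
    · intro l
      induction l using Fin.cases with
      | zero => simp [dist_padL, hf0]
      | succ l => simp [dist_padR, hf1]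
    · intro u u' hu
      have conv : ∀ v : Fin (M + 1) → X,
          c (fun l => (Fin.cons (fun x => padL D1 (f0 x)) (fun l x => padR D0 (f1 l x)) :
              Fin (M + 1) → X → Euc (D0 + D1)) l (v l))
            = c1 (fun l => f1 l (v l.succ)) (cls (v 0)) := by
        intro v
        have hw : ∀ l, f1 l (v l.succ) ∈ A1 := fun l => hf1A l _
        simp only [c1, dif_pos hw]
        have := congrFun (hf0m (v 0) (rep (cls (v 0))) (hrep _).symm)
          (fun l => ⟨f1 l (v l.succ), hw l⟩)
        rw [← this]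
        simp only [c0]
        congr 1
        funext l
        induction l using Fin.cases with
        | zero => simp
        | succ l => simp
      rw [conv u, conv u', hu 0]
      exact congrFun (hf1m (fun l => u l.succ) (fun l => u' l.succ) (fun l => hu l.succ)) _

end Vale.Agent.P058
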